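import Crest.Agent.OT.Tilt
import Crest.Agent.OT.Defs

/-! # Row 82, task FB-1: `pl_tilt` in the exact shape of the skeleton `FBound.lean`
(with `gw`, `gam`, `gav` unfolded). -/

set_option autoImplicit false
open MeasureTheory
open scoped ENNReal NNReal RealInnerProductSpace

namespace Crest.Agent.OT.FB1
variable {d : ℕ}

theorem gw_eq (κ : ℝ) (x : E d) : Real.exp (-(κ / 2) * ‖x‖ ^ 2) = Tilt.gw κ x := by
  unfold Tilt.gw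
  congr 1
  ring

theorem pl_tilt (κ : ℝ) (hκ : 0 < κ) (A B M : Set (E d)) (hA : MeasurableSet A) (hB : MeasurableSet B)
    (hM : MeasurableSet M)
    (hmid : ∀ a ∈ A, ∀ b ∈ B, (1 / 2 : ℝ) • (a + b) ∈ M)
    (θ : E d → ℝ) (hθm : Measurable θ) (Θ : ℝ) (hθb : ∀ x, |θ x| ≤ Θ)
    (hθ : ∀ a ∈ A, ∀ b ∈ B, |θ a - θ b| ≤ ‖a - b‖) :
    Real.sqrt ((∫ x in A, Real.exp (-(κ / 2) * ‖x‖ ^ 2)) * ∫ x in B, Real.exp (-(κ / 2) * ‖x‖ ^ 2)) *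
      Real.exp (κ / 8 * ((∫ x in A, θ x * Real.exp (-(κ / 2) * ‖x‖ ^ 2)) /
          (∫ x in A, Real.exp (-(κ / 2) * ‖x‖ ^ 2)) -
        (∫ x in B, θ x * Real.exp (-(κ / 2) * ‖x‖ ^ 2)) /
          (∫ x in B, Real.exp (-(κ / 2) * ‖x‖ ^ 2))) ^ 2) ≤
      ∫ x in M, Real.exp (-(κ / 2) * ‖x‖ ^ 2) := by
  simp only [gw_eq]
  exact Tilt.pl_tilt_sqrt κ hκ A B M hA hB hM hmid θ hθm Θ (fun x _ => hθb x) (fun x _ => hθb x) hθ

end Crest.Agent.OT.FB1
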