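import Mathlib

/-! # Row 82, abstract core of the F-bound: pure real algebra per cell. -/

set_option autoImplicit false

namespace Crest.Agent.OT.FBCore

theorem abs_exp_sub_le (s t M : ℝ) (hs : Real.exp s ≤ M) (ht : Real.exp t ≤ M) :
    |Real.exp s - Real.exp t| ≤ M * |s - t| := by
  have key : ∀ s t : ℝ, Real.exp s - Real.exp t ≤ Real.exp s * (s - t) := by
    intro s t
    have h1 := Real.add_one_le_exp (t - s)
    have h2 : Real.exp t = Real.exp s * Real.exp (t - s) := by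
      rw [← Real.exp_add]; congr 1; ring
    rw [h2]; nlinarith [Real.exp_pos s]
  rcases le_total t s with h | h
  · rw [abs_of_nonneg (sub_nonneg.2 (Real.exp_le_exp.2 h)), abs_of_nonneg (sub_nonneg.2 h)]
    exact (key s t).trans (mul_le_mul_of_nonneg_right hs (sub_nonneg.2 h))
  · rw [abs_sub_comm, abs_sub_comm s t,
      abs_of_nonneg (sub_nonneg.2 (Real.exp_le_exp.2 h)), abs_of_nonneg (sub_nonneg.2 h)]
    exact (key t s).trans (mul_le_mul_of_nonneg_right ht (sub_nonneg.2 h))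

/-- Hellinger defect of a cell. -/
noncomputable def hel (p q : ℝ) : ℝ := (p + q) / 2 - Real.sqrt (p * q)

theorem hel_nonneg (p q : ℝ) (hp : 0 ≤ p) (hq : 0 ≤ q) : 0 ≤ hel p q := by
  unfold hel
  rw [Real.sqrt_mul hp]
  nlinarith [sq_nonneg (Real.sqrt p - Real.sqrt q), Real.sq_sqrt hp, Real.sq_sqrt hq]

theorem alg1 (p q a b : ℝ) (hp : 0 < p) (hq : 0 < q) (ha : 0 < a) (hpa : p ≤ a) (hqb : q ≤ b)
    (hb2 : b ≤ 2 * a) :
    hel p q ≤ 4 * a * (a / p - b / q) ^ 2 + (b - a) ^ 2 / a := by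
  set δ := a / p - b / q with hδ
  have h1 : a * (q - p) = p * (q * δ + (b - a)) := by
    rw [hδ]; field_simp; ring
  obtain ⟨s, hs0, hs⟩ : ∃ s : ℝ, 0 < s ∧ p = s ^ 2 :=
    ⟨Real.sqrt p, Real.sqrt_pos.2 hp, (Real.sq_sqrt hp.le).symm⟩
  obtain ⟨t, ht0, ht⟩ : ∃ t : ℝ, 0 < t ∧ q = t ^ 2 :=
    ⟨Real.sqrt q, Real.sqrt_pos.2 hq, (Real.sq_sqrt hq.le).symm⟩
  have hsq : Real.sqrt (p * q) = s * t := by
    rw [hs, ht, ← mul_pow, Real.sqrt_sq (mul_pos hs0 ht0).le]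
  have hhel : hel p q = (s - t) ^ 2 / 2 := by
    unfold hel; rw [hsq, hs, ht]; ring
  -- (s - t)^2 * p ≤ (q - p)^2
  have h2 : (s - t) ^ 2 * p ≤ (q - p) ^ 2 := by
    have e : (q - p) ^ 2 = (s - t) ^ 2 * (s + t) ^ 2 := by rw [hs, ht]; ring
    rw [e, hs]
    apply mul_le_mul_of_nonneg_left _ (sq_nonneg _)
    nlinarith
  -- a^2 (q-p)^2 = p^2 (...)^2 ≤ 2 p^2 (q^2 δ^2 + (b-a)^2)
  have h3 : a ^ 2 * (q - p) ^ 2 ≤ 2 * p ^ 2 * (q ^ 2 * δ ^ 2 + (b - a) ^ 2) := by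
    have e : a ^ 2 * (q - p) ^ 2 = (a * (q - p)) ^ 2 := by ring
    rw [e, h1]
    nlinarith [sq_nonneg (q * δ - (b - a)), sq_nonneg p]
  have hq2 : q ^ 2 ≤ 4 * a ^ 2 := by nlinarith
  have h4 : q ^ 2 * δ ^ 2 ≤ 4 * a ^ 2 * δ ^ 2 := mul_le_mul_of_nonneg_right hq2 (sq_nonneg _)
  -- a^2 (s-t)^2 ≤ 2 p (4 a^2 δ^2 + (b-a)^2)
  have h5 : a ^ 2 * (s - t) ^ 2 ≤ 2 * p * (4 * a ^ 2 * δ ^ 2 + (b - a) ^ 2) := by
    have h6 : p * (a ^ 2 * (s - t) ^ 2) ≤ p * (2 * p * (4 * a ^ 2 * δ ^ 2 + (b - a) ^ 2)) := by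
      have h7 : a ^ 2 * ((s - t) ^ 2 * p) ≤ a ^ 2 * (q - p) ^ 2 :=
        mul_le_mul_of_nonneg_left h2 (sq_nonneg _)
      have h8 : 2 * p ^ 2 * (q ^ 2 * δ ^ 2 + (b - a) ^ 2) ≤
          2 * p ^ 2 * (4 * a ^ 2 * δ ^ 2 + (b - a) ^ 2) := by
        apply mul_le_mul_of_nonneg_left _ (by positivity)
        linarith
      nlinarith
    exact le_of_mul_le_mul_left h6 hp
  have h9 : 2 * p * (4 * a ^ 2 * δ ^ 2 + (b - a) ^ 2) ≤ 2 * a * (4 * a ^ 2 * δ ^ 2 + (b - a) ^ 2) := by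
    apply mul_le_mul_of_nonneg_right (by linarith) (by positivity)
  rw [hhel]
  have e2 : 4 * a * δ ^ 2 + (b - a) ^ 2 / a = (a * (4 * a ^ 2 * δ ^ 2 + (b - a) ^ 2)) / a ^ 2 := by
    field_simp
  rw [e2, le_div_iff₀ (by positivity)]
  nlinarith

theorem alg2 (p q a b : ℝ) (hp : 0 < p) (hq : 0 < q) (ha : 0 < a)
    (hap : a ≤ 128 / 127 * p) (hbq : b ≤ 128 / 127 * q) (hab : a ≤ 3 / 2 * b) :
    0.79 * a ≤ Real.sqrt (p * q) := by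
  apply Real.le_sqrt_of_sq_le
  have h1 : 127 / 128 * a ≤ p := by linarith
  have h2 : 127 / 128 * (2 / 3 * a) ≤ q := by linarith
  have h3 : (127 / 128 * a) * (127 / 128 * (2 / 3 * a)) ≤ p * q :=
    mul_le_mul h1 h2 (by positivity) hp.le
  nlinarith [sq_nonneg a]

theorem alg3 (p q a b : ℝ) (hp : 0 < p) (hq : 0 < q) (ha : 0 < a)
    (hap : a ≤ 128 / 127 * p) (hqb : q ≤ b) (hb2 : b ≤ 2 * a) :
    q ^ 2 ≤ 3 * a * Real.sqrt (p * q) := by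
  have h1 : q ^ 2 / (3 * a) ≤ Real.sqrt (p * q) := by
    apply Real.le_sqrt_of_sq_le
    rw [div_pow, div_le_iff₀ (by positivity)]
    have hq2 : q ≤ 2 * a := by linarith
    have h2 : q ^ 3 ≤ (2 * a) ^ 3 := pow_le_pow_left₀ hq.le hq2 3
    have h3 : (2 * a) ^ 3 ≤ 9 * a ^ 2 * p := by nlinarith [sq_nonneg a, sq_pos_of_pos ha]
    have h4 : q * q ^ 3 ≤ q * (9 * a ^ 2 * p) := mul_le_mul_of_nonneg_left (h2.trans h3) hq.le
    nlinarith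
  rw [div_le_iff₀ (by positivity)] at h1
  linarith

theorem alg4 (p q a b : ℝ) (hp : 0 < p) (hq : 0 < q) (hpa : p ≤ a) (hqb : q ≤ b)
    (hb2 : b ≤ 2 * a) : (q - p) ^ 2 ≤ 12 * a * hel p q := by
  obtain ⟨s, hs0, hs⟩ : ∃ s : ℝ, 0 < s ∧ p = s ^ 2 :=
    ⟨Real.sqrt p, Real.sqrt_pos.2 hp, (Real.sq_sqrt hp.le).symm⟩
  obtain ⟨t, ht0, ht⟩ : ∃ t : ℝ, 0 < t ∧ q = t ^ 2 :=
    ⟨Real.sqrt q, Real.sqrt_pos.2 hq, (Real.sq_sqrt hq.le).symm⟩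
  have hsq : Real.sqrt (p * q) = s * t := by
    rw [hs, ht, ← mul_pow, Real.sqrt_sq (mul_pos hs0 ht0).le]
  have hhel : hel p q = (s - t) ^ 2 / 2 := by
    unfold hel; rw [hsq, hs, ht]; ring
  rw [hhel]
  have e : (q - p) ^ 2 = (s - t) ^ 2 * (s + t) ^ 2 := by rw [hs, ht]; ring
  rw [e]
  have h1 : (s + t) ^ 2 ≤ 6 * a := by nlinarith [sq_nonneg (s - t)]
  nlinarith [mul_le_mul_of_nonneg_left h1 (sq_nonneg (s - t))]

end Crest.Agent.OT.FBCore
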