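import Crest.Agent.OT.FBCoreAlg

/-! # Row 82, abstract core of the F-bound: the final per-cell estimate (vector form). -/

set_option autoImplicit false
open scoped RealInnerProductSpace

namespace Crest.Agent.OT.FBCore

theorem cell_final {F : Type*} [NormedAddCommGroup F] [NormedSpace ℝ F]
    (r p q a b n : ℝ) (XA XB W : F) (hr : 0 < r) (hp : 0 < p) (hq : 0 < q) (ha : 0 < a)
    (hpa : p ≤ a) (hap : a ≤ 128 / 127 * p) (hqb : q ≤ b) (hb2 : b ≤ 2 * a) (hn : 0 ≤ n)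
    (hW : ‖W‖ ^ 2 ≤ r ^ 2 * (b * n)) (hXA : ‖XA‖ ≤ r * a) :
    ‖(XB + W) - XA‖ ^ 2 / a ≤
      3 * (2 * r ^ 2 * n + 3 * (Real.sqrt (p * q) * ‖p⁻¹ • XA - q⁻¹ • XB‖ ^ 2)
        + 12 * r ^ 2 * (128 / 127) ^ 2 * hel p q) := by
  set V := p⁻¹ • XA - q⁻¹ • XB with hV
  have hZ : (XB + W) - XA = W - q • V + ((q - p) / p) • XA := by
    rw [hV, smul_sub, smul_smul, smul_smul, mul_inv_cancel₀ hq.ne', one_smul, sub_div,
      div_self hp.ne', sub_smul, one_smul, div_eq_mul_inv]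
    abel
  have h1 : ‖(XB + W) - XA‖ ≤ ‖W‖ + q * ‖V‖ + |q - p| / p * ‖XA‖ := by
    rw [hZ]
    calc ‖W - q • V + ((q - p) / p) • XA‖ ≤ ‖W - q • V‖ + ‖((q - p) / p) • XA‖ := norm_add_le _ _
      _ ≤ ‖W‖ + ‖q • V‖ + ‖((q - p) / p) • XA‖ := by gcongr; exact norm_sub_le _ _
      _ = ‖W‖ + q * ‖V‖ + |q - p| / p * ‖XA‖ := by
          rw [norm_smul, norm_smul, Real.norm_eq_abs, Real.norm_eq_abs, abs_of_pos hq, abs_div,
            abs_of_pos hp]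
  have h2 : ‖(XB + W) - XA‖ ^ 2 ≤ 3 * (‖W‖ ^ 2 + (q * ‖V‖) ^ 2 + (|q - p| / p * ‖XA‖) ^ 2) := by
    have h0 := norm_nonneg ((XB + W) - XA)
    have := pow_le_pow_left₀ h0 h1 2
    refine this.trans ?_
    nlinarith [sq_nonneg (‖W‖ - q * ‖V‖), sq_nonneg (‖W‖ - |q - p| / p * ‖XA‖),
      sq_nonneg (q * ‖V‖ - |q - p| / p * ‖XA‖)]
  have hhel := hel_nonneg p q hp.le hq.le
  have t1 : ‖W‖ ^ 2 ≤ a * (2 * r ^ 2 * n) := by
    have : b * n ≤ 2 * a * n := mul_le_mul_of_nonneg_right hb2 hn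
    nlinarith [mul_le_mul_of_nonneg_left this (sq_nonneg r)]
  have t2 : (q * ‖V‖) ^ 2 ≤ a * (3 * (Real.sqrt (p * q) * ‖V‖ ^ 2)) := by
    have := alg3 p q a b hp hq ha hap hqb hb2
    rw [mul_pow]
    nlinarith [mul_le_mul_of_nonneg_right this (sq_nonneg ‖V‖)]
  have t3 : (|q - p| / p * ‖XA‖) ^ 2 ≤ a * (12 * r ^ 2 * (128 / 127) ^ 2 * hel p q) := by
    have h4 := alg4 p q a b hp hq hpa hqb hb2
    have h5 : ‖XA‖ / p ≤ r * (128 / 127) := by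
      rw [div_le_iff₀ hp]
      calc ‖XA‖ ≤ r * a := hXA
        _ ≤ r * (128 / 127 * p) := by gcongr
        _ = _ := by ring
    have h6 : (‖XA‖ / p) ^ 2 ≤ (r * (128 / 127)) ^ 2 :=
      pow_le_pow_left₀ (div_nonneg (norm_nonneg _) hp.le) h5 2
    have e : (|q - p| / p * ‖XA‖) ^ 2 = (q - p) ^ 2 * (‖XA‖ / p) ^ 2 := by
      rw [mul_pow, div_pow, sq_abs, div_pow]; ring
    rw [e]
    calc (q - p) ^ 2 * (‖XA‖ / p) ^ 2 ≤ (12 * a * hel p q) * (r * (128 / 127)) ^ 2 :=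
          mul_le_mul h4 h6 (sq_nonneg _) (by positivity)
      _ = _ := by ring
  rw [div_le_iff₀ ha]
  nlinarith

end Crest.Agent.OT.FBCore
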