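import Mathlib

/-! # Row 82, leaves LEAF-CS and LEAF-W of the F-bound core (helper24). -/

set_option autoImplicit false
open MeasureTheory
open scoped ENNReal NNReal RealInnerProductSpace

namespace Crest.Agent.OT.FBLeafW
variable {d : ℕ}

local notation "E" => EuclideanSpace ℝ (Fin d)

/-- LEAF-CS (Cauchy–Schwarz on a set of finite measure). -/
theorem leaf_cs (S : Set E) (hS : MeasurableSet S) (hfin : volume S ≠ ⊤) (f : E → ℝ)
    (hf : Measurable f) (F : ℝ) (hb : ∀ x, |f x| ≤ F) :
    (∫ x in S, f x) ^ 2 ≤ (volume S).toReal * ∫ x in S, f x ^ 2 := by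
  haveI : IsFiniteMeasure (volume.restrict S) := ⟨by rw [Measure.restrict_apply_univ]; exact hfin.lt_top⟩
  set μ := (volume : Measure E).restrict S with hμ
  set V : ℝ := (volume S).toReal with hV
  set I : ℝ := ∫ x, f x ∂μ with hI
  have hF0 : 0 ≤ F := (abs_nonneg _).trans (hb 0)
  have i1 : Integrable f μ :=
    Integrable.of_bound hf.aestronglyMeasurable F (Filter.Eventually.of_forall fun x => by
      rw [Real.norm_eq_abs]; exact hb x)
  have i2 : Integrable (fun x => f x ^ 2) μ :=
    Integrable.of_bound (hf.pow_const 2).aestronglyMeasurable (F ^ 2)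
      (Filter.Eventually.of_forall fun x => by
        rw [Real.norm_eq_abs, abs_pow]
        exact pow_le_pow_left₀ (abs_nonneg _) (hb x) 2)
  have hconst : ∫ _x, (1 : ℝ) ∂μ = V := by
    rw [integral_const, smul_eq_mul, mul_one, hμ, measureReal_def, Measure.restrict_apply_univ]
  have key : 0 ≤ V ^ 2 * (∫ x, f x ^ 2 ∂μ) - 2 * V * I * I + I ^ 2 * V := by
    have h0 : 0 ≤ ∫ x, (V * f x - I) ^ 2 ∂μ := integral_nonneg fun x => sq_nonneg _
    have e : ∫ x, (V * f x - I) ^ 2 ∂μ =
        V ^ 2 * (∫ x, f x ^ 2 ∂μ) - 2 * V * I * I + I ^ 2 * V := by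
      have e1 : (fun x => (V * f x - I) ^ 2) =
          fun x => V ^ 2 * f x ^ 2 - 2 * V * I * f x + I ^ 2 * 1 := by
        funext x; ring
      have a1 : Integrable (fun x => V ^ 2 * f x ^ 2) μ := i2.const_mul _
      have a2 : Integrable (fun x => 2 * V * I * f x) μ := i1.const_mul _
      have a3 : Integrable (fun _x : E => I ^ 2 * (1 : ℝ)) μ := integrable_const _
      have a12 : Integrable (fun x => V ^ 2 * f x ^ 2 - 2 * V * I * f x) μ := a1.sub a2
      rw [e1, integral_add a12 a3, integral_sub a1 a2, integral_const_mul, integral_const_mul,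
        integral_const_mul, hconst]
    rw [e] at h0
    exact h0
  have hV0 : 0 ≤ V := ENNReal.toReal_nonneg
  rcases hV0.eq_or_lt with h0 | hpos
  · -- `V = 0`
    have hz : volume S = 0 := by
      rcases (ENNReal.toReal_eq_zero_iff _).1 h0.symm with h | h
      · exact h
      · exact absurd h hfin
    have : I = 0 := by
      rw [hI, hμ, Measure.restrict_eq_zero.2 hz, integral_zero_measure]
    rw [this, ← h0]
    simp
  · have : 0 ≤ V * (V * (∫ x, f x ^ 2 ∂μ) - I ^ 2) := by nlinarith
    have h2 := nonneg_of_mul_nonneg_right this hpos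
    linarith

/-- LEAF-W. -/
theorem leaf_w (r : ℝ) (hr : 0 < r) (S : Set E) (hS : MeasurableSet S) (hSr : ∀ x ∈ S, ‖x‖ ≤ r)
    (η : E → ℝ) (hη : Measurable η) (hη2 : ∀ x, |η x| ≤ 1 / 2) :
    ‖∫ x in S, η x • x‖ ^ 2 ≤ r ^ 2 * ((volume S).toReal * ∫ x in S, η x ^ 2) := by
  have hfin : volume S ≠ ⊤ := by
    have hsub : S ⊆ Metric.closedBall (0 : E) r := fun x hx => by
      rw [mem_closedBall_zero_iff]; exact hSr x hx
    exact ((measure_mono hsub).trans_lt measure_closedBall_lt_top).ne
  haveI : IsFiniteMeasure ((volume : Measure E).restrict S) :=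
    ⟨by rw [Measure.restrict_apply_univ]; exact hfin.lt_top⟩
  have iabs : Integrable (fun x => |η x|) ((volume : Measure E).restrict S) :=
    Integrable.of_bound hη.abs.aestronglyMeasurable (1 / 2)
      (Filter.Eventually.of_forall fun x => by
        rw [Real.norm_eq_abs, abs_abs]; exact hη2 x)
  have h1 : ‖∫ x in S, η x • x‖ ≤ r * ∫ x in S, |η x| := by
    calc ‖∫ x in S, η x • x‖ ≤ ∫ x in S, ‖η x • x‖ := norm_integral_le_integral_norm _
      _ ≤ ∫ x in S, r * |η x| := by
          refine integral_mono_of_nonneg (Filter.Eventually.of_forall fun x => norm_nonneg _)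
            (iabs.const_mul r) ?_
          filter_upwards [ae_restrict_mem hS] with x hx
          rw [norm_smul, Real.norm_eq_abs, mul_comm]
          exact mul_le_mul_of_nonneg_right (hSr x hx) (abs_nonneg _)
      _ = r * ∫ x in S, |η x| := integral_const_mul _ _
  have h2 := leaf_cs S hS hfin (fun x => |η x|) hη.abs (1 / 2) (fun x => by
    rw [abs_abs]; exact hη2 x)
  simp only [sq_abs] at h2
  have h3 : 0 ≤ ∫ x in S, |η x| := integral_nonneg fun x => abs_nonneg _
  calc ‖∫ x in S, η x • x‖ ^ 2 ≤ (r * ∫ x in S, |η x|) ^ 2 :=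
        pow_le_pow_left₀ (norm_nonneg _) h1 2
    _ = r ^ 2 * (∫ x in S, |η x|) ^ 2 := by ring
    _ ≤ r ^ 2 * ((volume S).toReal * ∫ x in S, η x ^ 2) :=
        mul_le_mul_of_nonneg_left h2 (sq_nonneg r)

end Crest.Agent.OT.FBLeafW
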