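import Crest.Agent.OT.Tilt
import Crest.Agent.OT.FBCoreAlg
import Crest.Agent.OT.FBCoreCell
import Crest.Agent.OT.FBLeafW

/-! # Row 82, abstract core of the F-bound (module (3)). -/

set_option autoImplicit false
open MeasureTheory
open scoped ENNReal NNReal RealInnerProductSpace
open Crest.Agent.OT.Tilt

namespace Crest.Agent.OT.FBCore
variable {d : ℕ}

local notation "E" => EuclideanSpace ℝ (Fin d)

/-- inverse Gaussian weight. -/
noncomputable def uu (k : ℝ) (x : E) : ℝ := Real.exp (k * ‖x‖ ^ 2 / 2)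

theorem uu_mul_gw (k : ℝ) (x : E) : uu k x * gw k x = 1 := by
  unfold uu gw; rw [← Real.exp_add]; simp

theorem measurable_uu (k : ℝ) : Measurable (uu k : E → ℝ) := by
  unfold uu; fun_prop

/-- the parameter `k = 1 / (64 r²)`. -/
noncomputable def kk (r : ℝ) : ℝ := 1 / (64 * r ^ 2)

theorem kk_pos (r : ℝ) (hr : 0 < r) : 0 < kk r := by unfold kk; positivity

theorem expo_le (r : ℝ) (hr : 0 < r) (x : E) (hx : ‖x‖ ≤ r) : kk r * ‖x‖ ^ 2 / 2 ≤ 1 / 128 := by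
  unfold kk
  have h : ‖x‖ ^ 2 ≤ r ^ 2 := pow_le_pow_left₀ (norm_nonneg _) hx 2
  rw [div_mul_eq_mul_div, one_mul, div_div, div_le_iff₀ (by positivity)]
  nlinarith

theorem exp_small : Real.exp (1 / 128) ≤ 128 / 127 := by
  have h := Real.add_one_le_exp (-(1 / 128 : ℝ))
  rw [Real.exp_neg] at h
  have hp := Real.exp_pos (1 / 128 : ℝ)
  rw [le_div_iff₀ (by norm_num)]
  have h2 : (127 / 128 : ℝ) ≤ (Real.exp (1 / 128))⁻¹ := by linarith
  have h3 : (127 / 128 : ℝ) * Real.exp (1 / 128) ≤ 1 := by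
    calc (127 / 128 : ℝ) * Real.exp (1 / 128) ≤ (Real.exp (1 / 128))⁻¹ * Real.exp (1 / 128) := by
          gcongr
      _ = 1 := inv_mul_cancel₀ hp.ne'
  linarith

theorem uu_le (r : ℝ) (hr : 0 < r) (x : E) (hx : ‖x‖ ≤ r) : uu (kk r) x ≤ 128 / 127 :=
  (Real.exp_le_exp.2 (expo_le r hr x hx)).trans exp_small

theorem uu_pos (k : ℝ) (x : E) : 0 < uu k x := Real.exp_pos _

theorem gw_le_one (k : ℝ) (hk : 0 ≤ k) (x : E) : gw k x ≤ 1 := by
  unfold gw
  rw [Real.exp_le_one_iff]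
  have : 0 ≤ k * ‖x‖ ^ 2 / 2 := by positivity
  linarith

theorem gw_ge (r : ℝ) (hr : 0 < r) (x : E) (hx : ‖x‖ ≤ r) : 127 / 128 ≤ gw (kk r) x := by
  have h1 := uu_mul_gw (kk r) x
  have h2 := uu_le r hr x hx
  have h3 := gw_pos (kk r) x
  nlinarith

theorem uu_lip (r : ℝ) (hr : 0 < r) (x y : E) (hx : ‖x‖ ≤ r) (hy : ‖y‖ ≤ r) :
    |uu (kk r) x - uu (kk r) y| ≤ 2 / (127 * r) * ‖x - y‖ := by
  have h1 := abs_exp_sub_le (kk r * ‖x‖ ^ 2 / 2) (kk r * ‖y‖ ^ 2 / 2) (128 / 127)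
    (uu_le r hr x hx) (uu_le r hr y hy)
  have h2 : |kk r * ‖x‖ ^ 2 / 2 - kk r * ‖y‖ ^ 2 / 2| ≤ kk r * r * ‖x - y‖ := by
    have e : kk r * ‖x‖ ^ 2 / 2 - kk r * ‖y‖ ^ 2 / 2 =
        kk r / 2 * ((‖x‖ - ‖y‖) * (‖x‖ + ‖y‖)) := by ring
    rw [e, abs_mul, abs_mul, abs_of_pos (half_pos (kk_pos r hr)),
      abs_of_nonneg (add_nonneg (norm_nonneg x) (norm_nonneg y))]
    have h3 : |‖x‖ - ‖y‖| ≤ ‖x - y‖ := abs_norm_sub_norm_le x y
    have h4 : |‖x‖ - ‖y‖| * (‖x‖ + ‖y‖) ≤ ‖x - y‖ * (2 * r) :=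
      mul_le_mul h3 (by linarith) (add_nonneg (norm_nonneg x) (norm_nonneg y)) (norm_nonneg _)
    have := mul_le_mul_of_nonneg_left h4 (half_pos (kk_pos r hr)).le
    nlinarith
  have h5 : (128 / 127 : ℝ) * (kk r * r * ‖x - y‖) = 2 / (127 * r) * ‖x - y‖ := by
    unfold kk; field_simp; ring
  calc |uu (kk r) x - uu (kk r) y| ≤ 128 / 127 * |kk r * ‖x‖ ^ 2 / 2 - kk r * ‖y‖ ^ 2 / 2| := h1
    _ ≤ 128 / 127 * (kk r * r * ‖x - y‖) := by gcongr
    _ = _ := h5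

/-- first tilt function. -/
noncomputable def thU (r : ℝ) (x : E) : ℝ := 127 * r / 2 * uu (kk r) x

theorem thU_lip (r : ℝ) (hr : 0 < r) (x y : E) (hx : ‖x‖ ≤ r) (hy : ‖y‖ ≤ r) :
    |thU r x - thU r y| ≤ ‖x - y‖ := by
  unfold thU
  rw [← mul_sub, abs_mul, abs_of_pos (by positivity)]
  have := uu_lip r hr x y hx hy
  calc 127 * r / 2 * |uu (kk r) x - uu (kk r) y| ≤ 127 * r / 2 * (2 / (127 * r) * ‖x - y‖) := by
        gcongr
    _ = ‖x - y‖ := by field_simp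

/-- second tilt function. -/
noncomputable def thE (r : ℝ) (e : E) (x : E) : ℝ := 127 / 130 * (⟪e, x⟫ * uu (kk r) x)

theorem thE_lip (r : ℝ) (hr : 0 < r) (e : E) (he : ‖e‖ ≤ 1) (x y : E) (hx : ‖x‖ ≤ r)
    (hy : ‖y‖ ≤ r) : |thE r e x - thE r e y| ≤ ‖x - y‖ := by
  unfold thE
  rw [← mul_sub, abs_mul, abs_of_pos (by norm_num)]
  have e1 : ⟪e, x⟫ * uu (kk r) x - ⟪e, y⟫ * uu (kk r) y =
      ⟪e, x - y⟫ * uu (kk r) x + ⟪e, y⟫ * (uu (kk r) x - uu (kk r) y) := by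
    rw [inner_sub_right]; ring
  have h1 : |⟪e, x - y⟫| ≤ ‖x - y‖ := by
    calc |⟪e, x - y⟫| ≤ ‖e‖ * ‖x - y‖ := abs_real_inner_le_norm _ _
      _ ≤ 1 * ‖x - y‖ := by gcongr
      _ = _ := one_mul _
  have h2 : |⟪e, y⟫| ≤ r := by
    calc |⟪e, y⟫| ≤ ‖e‖ * ‖y‖ := abs_real_inner_le_norm _ _
      _ ≤ 1 * r := by gcongr
      _ = _ := one_mul _
  have h3 := uu_lip r hr x y hx hy
  have h4 := uu_le r hr x hx
  have h5 : |⟪e, x - y⟫ * uu (kk r) x| ≤ ‖x - y‖ * (128 / 127) := by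
    rw [abs_mul, abs_of_pos (uu_pos _ _)]
    exact mul_le_mul h1 h4 (uu_pos _ _).le (norm_nonneg _)
  have h6 : |⟪e, y⟫ * (uu (kk r) x - uu (kk r) y)| ≤ r * (2 / (127 * r) * ‖x - y‖) := by
    rw [abs_mul]
    exact mul_le_mul h2 h3 (abs_nonneg _) hr.le
  have h7 : r * (2 / (127 * r) * ‖x - y‖) = 2 / 127 * ‖x - y‖ := by field_simp
  rw [e1]
  have := abs_add_le (⟪e, x - y⟫ * uu (kk r) x) (⟪e, y⟫ * (uu (kk r) x - uu (kk r) y))
  rw [h7] at h6
  linarith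

/-! ### the Hellinger inequality -/

theorem gam_ac (k : ℝ) : (gam k : Measure E) ≪ volume := by
  unfold gam; exact withDensity_absolutelyContinuous _ _

theorem sum_gam_le {ι : Type*} [Fintype ι] (k : ℝ) (hk : 0 < k) (K : Set E)
    (M : ι → Set E) (hM : ∀ i, MeasurableSet (M i)) (hMK : ∀ i, M i ⊆ K)
    (hMd : ∀ i j, i ≠ j → volume (M i ∩ M j) = 0) :
    ∑ i, (gam k (M i)).toReal ≤ (gam k K).toReal := by
  have := isFiniteMeasure_gam (d := d) k hk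
  have h1 : gam k (⋃ i ∈ (Finset.univ : Finset ι), M i) = ∑ i ∈ Finset.univ, gam k (M i) :=
    measure_biUnion_finset₀ (fun i _ j _ hij => gam_ac k (hMd i j hij))
      (fun i _ => (hM i).nullMeasurableSet)
  rw [← ENNReal.toReal_sum (fun i _ => measure_ne_top _ _), ← h1]
  apply ENNReal.toReal_mono (measure_ne_top _ _)
  apply measure_mono
  intro x hx
  simp only [Finset.mem_univ, Set.iUnion_true, Set.mem_iUnion] at hx
  obtain ⟨i, hi⟩ := hx
  exact hMK i hi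

theorem gam_le_sum {ι : Type*} [Fintype ι] (k : ℝ) (hk : 0 < k) (K : Set E)
    (A : ι → Set E) (hAc : volume (K \ ⋃ i, A i) = 0) :
    (gam k K).toReal ≤ ∑ i, (gam k (A i)).toReal := by
  have := isFiniteMeasure_gam (d := d) k hk
  rw [← ENNReal.toReal_sum (fun i _ => measure_ne_top _ _)]
  apply ENNReal.toReal_mono (ENNReal.sum_ne_top.2 fun i _ => measure_ne_top _ _)
  calc gam k K ≤ gam k ((⋃ i, A i) ∪ (K \ ⋃ i, A i)) := by
        apply measure_mono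
        intro x hx
        by_cases h : x ∈ ⋃ i, A i
        · exact Or.inl h
        · exact Or.inr ⟨hx, h⟩
    _ ≤ gam k (⋃ i, A i) + gam k (K \ ⋃ i, A i) := measure_union_le _ _
    _ = gam k (⋃ i, A i) := by rw [gam_ac k hAc, add_zero]
    _ ≤ ∑ i, gam k (A i) := measure_iUnion_fintype_le _ _

theorem hellinger {ι : Type*} [Fintype ι] (k : ℝ) (hk : 0 < k) (K : Set E)
    (A B M : ι → Set E) (hA : ∀ i, MeasurableSet (A i)) (hB : ∀ i, MeasurableSet (B i))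
    (hM : ∀ i, MeasurableSet (M i)) (hAK : ∀ i, A i ⊆ K) (hBK : ∀ i, B i ⊆ K)
    (hMK : ∀ i, M i ⊆ K)
    (hmid : ∀ i, ∀ x ∈ A i, ∀ y ∈ B i, (1 / 2 : ℝ) • (x + y) ∈ M i)
    (hMd : ∀ i j, i ≠ j → volume (M i ∩ M j) = 0)
    (hAc : volume (K \ ⋃ i, A i) = 0) (hBc : volume (K \ ⋃ i, B i) = 0)
    (θ : ι → E → ℝ) (hθm : ∀ i, Measurable (θ i)) (Θ : ℝ) (hθb : ∀ i, ∀ x ∈ K, |θ i x| ≤ Θ)
    (hθl : ∀ i, ∀ x ∈ K, ∀ y ∈ K, |θ i x - θ i y| ≤ ‖x - y‖) :
    ∑ i, Real.sqrt ((∫ x in A i, gw k x) * ∫ x in B i, gw k x) *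
        (k / 8 * ((∫ x in A i, θ i x * gw k x) / (∫ x in A i, gw k x) -
          (∫ x in B i, θ i x * gw k x) / ∫ x in B i, gw k x) ^ 2) ≤
      ∑ i, hel (∫ x in A i, gw k x) (∫ x in B i, gw k x) := by
  have h1 : ∀ i, Real.sqrt ((∫ x in A i, gw k x) * ∫ x in B i, gw k x) *
        (k / 8 * ((∫ x in A i, θ i x * gw k x) / (∫ x in A i, gw k x) -
          (∫ x in B i, θ i x * gw k x) / ∫ x in B i, gw k x) ^ 2) ≤
      (∫ x in M i, gw k x) - Real.sqrt ((∫ x in A i, gw k x) * ∫ x in B i, gw k x) := by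
    intro i
    have h := pl_tilt_sqrt k hk (A i) (B i) (M i) (hA i) (hB i) (hM i) (hmid i) (θ i) (hθm i) Θ
      (fun x hx => hθb i x (hAK i hx)) (fun x hx => hθb i x (hBK i hx))
      (fun x hx y hy => hθl i x (hAK i hx) y (hBK i hy))
    set D := k / 8 * ((∫ x in A i, θ i x * gw k x) / (∫ x in A i, gw k x) -
          (∫ x in B i, θ i x * gw k x) / ∫ x in B i, gw k x) ^ 2 with hD
    have h2 := Real.add_one_le_exp D
    have h3 := mul_le_mul_of_nonneg_left h2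
      (Real.sqrt_nonneg ((∫ x in A i, gw k x) * ∫ x in B i, gw k x))
    nlinarith
  have h2 := sum_gam_le k hk K M hM hMK hMd
  have h3 := gam_le_sum k hk K A hAc
  have h4 := gam_le_sum k hk K B hBc
  simp only [gam_toReal k _ (hM _)] at h2
  simp only [gam_toReal k _ (hA _)] at h3
  simp only [gam_toReal k _ (hB _)] at h4
  refine (Finset.sum_le_sum fun i _ => h1 i).trans ?_
  unfold hel
  rw [Finset.sum_sub_distrib, Finset.sum_sub_distrib]
  have e : ∑ i, ((∫ x in A i, gw k x) + ∫ x in B i, gw k x) / 2 =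
      ((∑ i, ∫ x in A i, gw k x) + ∑ i, ∫ x in B i, gw k x) / 2 := by
    rw [← Finset.sum_add_distrib, Finset.sum_div]
  rw [e]
  linarith

/-! ### per-set facts -/

theorem integrableOn_bdd {F : Type*} [NormedAddCommGroup F] (S : Set E)
    (hfin : volume S ≠ ⊤) (f : E → F) (hf : AEStronglyMeasurable f volume) (C : ℝ)
    (hS : MeasurableSet S) (hb : ∀ x ∈ S, ‖f x‖ ≤ C) : IntegrableOn f S := by
  refine Measure.integrableOn_of_bounded (M := C) hfin hf ?_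
  rw [ae_restrict_iff' hS]
  exact Filter.Eventually.of_forall hb

theorem gint_le (k : ℝ) (hk : 0 < k) (S : Set E) (hS : MeasurableSet S) (hfin : volume S ≠ ⊤) :
    ∫ x in S, gw k x ≤ (volume S).toReal := by
  have h : ∫ x in S, gw k x ≤ ∫ _ in S, (1 : ℝ) :=
    setIntegral_mono_on (integrable_gw k hk).integrableOn (integrableOn_const hfin) hS
      (fun x _ => gw_le_one k hk.le x)
  simpa [Measure.real] using h

theorem gint_ge (r : ℝ) (hr : 0 < r) (S : Set E) (hS : MeasurableSet S) (hfin : volume S ≠ ⊤)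
    (hSr : ∀ x ∈ S, ‖x‖ ≤ r) :
    (volume S).toReal ≤ 128 / 127 * ∫ x in S, gw (kk r) x := by
  have h : ∫ _ in S, (127 / 128 : ℝ) ≤ ∫ x in S, gw (kk r) x :=
    setIntegral_mono_on (integrableOn_const hfin) (integrable_gw _ (kk_pos r hr)).integrableOn hS
      (fun x hx => gw_ge r hr x (hSr x hx))
  have h2 : ∫ _ in S, (127 / 128 : ℝ) = (volume S).toReal * (127 / 128) := by
    simp [Measure.real]
  rw [h2] at h
  linarith

theorem int_thU (r : ℝ) (S : Set E) :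
    ∫ x in S, thU r x * gw (kk r) x = 127 * r / 2 * (volume S).toReal := by
  have h : ∀ x : E, thU r x * gw (kk r) x = 127 * r / 2 := by
    intro x; unfold thU; rw [mul_assoc, uu_mul_gw, mul_one]
  simp only [h]
  simp [Measure.real]
  ring

theorem integrableOn_id (r : ℝ) (S : Set E) (hS : MeasurableSet S) (hfin : volume S ≠ ⊤)
    (hSr : ∀ x ∈ S, ‖x‖ ≤ r) : IntegrableOn (fun x : E => x) S :=
  integrableOn_bdd S hfin _ measurable_id.aestronglyMeasurable r hS hSr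

theorem int_thE (r : ℝ) (e : E) (S : Set E) (hS : MeasurableSet S) (hfin : volume S ≠ ⊤)
    (hSr : ∀ x ∈ S, ‖x‖ ≤ r) :
    ∫ x in S, thE r e x * gw (kk r) x = 127 / 130 * ⟪e, ∫ x in S, x⟫ := by
  have h : ∀ x : E, thE r e x * gw (kk r) x = 127 / 130 * ⟪e, x⟫ := by
    intro x; unfold thE; rw [mul_assoc, mul_assoc, uu_mul_gw, mul_one]
  simp only [h]
  rw [integral_const_mul, integral_inner (integrableOn_id r S hS hfin hSr)]

theorem norm_int_id (r : ℝ) (S : Set E) (hfin : volume S ≠ ⊤)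
    (hSr : ∀ x ∈ S, ‖x‖ ≤ r) : ‖∫ x in S, x‖ ≤ r * (volume S).toReal :=
  norm_setIntegral_le_of_norm_le_const (lt_top_iff_ne_top.2 hfin) hSr

theorem mass_bounds (S : Set E) (hS : MeasurableSet S) (hfin : volume S ≠ ⊤)
    (η : E → ℝ) (hη : Measurable η) (hη2 : ∀ x, |η x| ≤ 1 / 2) :
    (volume S).toReal / 2 ≤ ∫ x in S, (1 + η x) ∧
      ∫ x in S, (1 + η x) ≤ 3 / 2 * (volume S).toReal := by
  have hi : IntegrableOn (fun x => 1 + η x) S :=
    integrableOn_bdd S hfin _ (measurable_const.add hη).aestronglyMeasurable (3 / 2) hS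
      (fun x _ => by
        rw [Real.norm_eq_abs]
        have := abs_le.1 (hη2 x)
        rw [abs_le]; constructor <;> linarith)
  constructor
  · have h : ∫ _ in S, (1 / 2 : ℝ) ≤ ∫ x in S, (1 + η x) :=
      setIntegral_mono_on (integrableOn_const hfin) hi hS
        (fun x _ => by have := abs_le.1 (hη2 x); linarith)
    have h2 : ∫ _ in S, (1 / 2 : ℝ) = (volume S).toReal / 2 := by
      simp [Measure.real]; ring
    rwa [h2] at h
  · have h : ∫ x in S, (1 + η x) ≤ ∫ _ in S, (3 / 2 : ℝ) :=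
      setIntegral_mono_on hi (integrableOn_const hfin) hS
        (fun x _ => by have := abs_le.1 (hη2 x); linarith)
    have h2 : ∫ _ in S, (3 / 2 : ℝ) = 3 / 2 * (volume S).toReal := by
      simp [Measure.real]; ring
    rwa [h2] at h

theorem integrableOn_eta (S : Set E) (hS : MeasurableSet S) (hfin : volume S ≠ ⊤)
    (η : E → ℝ) (hη : Measurable η) (hη2 : ∀ x, |η x| ≤ 1 / 2) : IntegrableOn η S :=
  integrableOn_bdd S hfin _ hη.aestronglyMeasurable (1 / 2) hS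
    (fun x _ => by rw [Real.norm_eq_abs]; exact hη2 x)

theorem int_one_add (S : Set E) (hS : MeasurableSet S) (hfin : volume S ≠ ⊤)
    (η : E → ℝ) (hη : Measurable η) (hη2 : ∀ x, |η x| ≤ 1 / 2) :
    ∫ x in S, (1 + η x) = (volume S).toReal + ∫ x in S, η x := by
  have h1 : IntegrableOn (fun _ : E => (1 : ℝ)) S := integrableOn_const hfin
  rw [integral_add h1 (integrableOn_eta S hS hfin η hη hη2)]
  simp [Measure.real]

theorem int_one_add_smul (r : ℝ) (S : Set E) (hS : MeasurableSet S) (hfin : volume S ≠ ⊤)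
    (hSr : ∀ x ∈ S, ‖x‖ ≤ r)
    (η : E → ℝ) (hη : Measurable η) (hη2 : ∀ x, |η x| ≤ 1 / 2) :
    ∫ x in S, (1 + η x) • x = (∫ x in S, x) + ∫ x in S, η x • x := by
  have hi : IntegrableOn (fun x => η x • x) S :=
    integrableOn_bdd S hfin _ (hη.smul measurable_id).aestronglyMeasurable (1 / 2 * r) hS
      (fun x hx => by
        rw [norm_smul, Real.norm_eq_abs]
        exact mul_le_mul (hη2 x) (hSr x hx) (norm_nonneg _) (by norm_num))
  rw [← integral_add (integrableOn_id r S hS hfin hSr) hi]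
  refine integral_congr_ae (Filter.Eventually.of_forall fun x => ?_)
  simp only [add_smul, one_smul]

/-! ### integral leaves -/

/-- LEAF-CS (Cauchy–Schwarz on a set of finite measure). -/
theorem leaf_cs (S : Set E) (hS : MeasurableSet S) (hfin : volume S ≠ ⊤) (f : E → ℝ)
    (hf : Measurable f) (F : ℝ) (hb : ∀ x, |f x| ≤ F) :
    (∫ x in S, f x) ^ 2 ≤ (volume S).toReal * ∫ x in S, f x ^ 2 :=
  FBLeafW.leaf_cs S hS hfin f hf F hb

/-- LEAF-W. -/
theorem leaf_w (r : ℝ) (hr : 0 < r) (S : Set E) (hS : MeasurableSet S) (hSr : ∀ x ∈ S, ‖x‖ ≤ r)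
    (η : E → ℝ) (hη : Measurable η) (hη2 : ∀ x, |η x| ≤ 1 / 2) :
    ‖∫ x in S, η x • x‖ ^ 2 ≤ r ^ 2 * ((volume S).toReal * ∫ x in S, η x ^ 2) :=
  FBLeafW.leaf_w r hr S hS hSr η hη hη2

/-- LEAF-SUM. -/
theorem leaf_sum {ι : Type*} [Fintype ι] (K : Set E) (hK : MeasurableSet K) (hfin : volume K ≠ ⊤)
    (B : ι → Set E) (hB : ∀ i, MeasurableSet (B i)) (hBK : ∀ i, B i ⊆ K)
    (hBd : ∀ i j, i ≠ j → volume (B i ∩ B j) = 0)
    (η : E → ℝ) (hη : Measurable η) (hη2 : ∀ x, |η x| ≤ 1 / 2) :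
    ∑ i, ∫ x in B i, η x ^ 2 ≤ ∫ x in K, η x ^ 2 := by
  have hi : IntegrableOn (fun x => η x ^ 2) K :=
    integrableOn_bdd K hfin _ (hη.pow_const 2).aestronglyMeasurable ((1 / 2) ^ 2) hK
      (fun x _ => by
        rw [Real.norm_eq_abs, abs_pow]
        exact pow_le_pow_left₀ (abs_nonneg _) (hη2 x) 2)
  have hsub : (⋃ i, B i) ⊆ K := Set.iUnion_subset hBK
  have h1 : ∫ x in ⋃ i, B i, η x ^ 2 = ∑' i, ∫ x in B i, η x ^ 2 :=
    integral_iUnion_ae (fun i => (hB i).nullMeasurableSet) (fun i j hij => hBd i j hij)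
      (hi.mono_set hsub)
  rw [tsum_fintype] at h1
  rw [← h1]
  exact setIntegral_mono_set hi (Filter.Eventually.of_forall fun x => sq_nonneg _)
    (Filter.Eventually.of_forall hsub)

/-- **Abstract core of the F-bound.** -/
theorem bary_bound_core {ι : Type*} [Fintype ι] (r : ℝ) (hr : 0 < r) (K : Set E)
    (hK : MeasurableSet K) (hKr : ∀ x ∈ K, ‖x‖ ≤ r)
    (A B M : ι → Set E) (hA : ∀ i, MeasurableSet (A i)) (hB : ∀ i, MeasurableSet (B i))
    (hM : ∀ i, MeasurableSet (M i)) (hAK : ∀ i, A i ⊆ K) (hBK : ∀ i, B i ⊆ K)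
    (hMK : ∀ i, M i ⊆ K)
    (hmid : ∀ i, ∀ x ∈ A i, ∀ y ∈ B i, (1 / 2 : ℝ) • (x + y) ∈ M i)
    (hMd : ∀ i j, i ≠ j → volume (M i ∩ M j) = 0)
    (hBd : ∀ i j, i ≠ j → volume (B i ∩ B j) = 0)
    (hAc : volume (K \ ⋃ i, A i) = 0) (hBc : volume (K \ ⋃ i, B i) = 0)
    (η : E → ℝ) (hη : Measurable η) (hη2 : ∀ x, |η x| ≤ 1 / 2)
    (hpos : ∀ i, 0 < volume (A i))
    (hmass : ∀ i, ∫ x in B i, (1 + η x) = (volume (A i)).toReal) :
    ∑ i, ‖(∫ x in B i, (1 + η x) • x) - ∫ x in A i, x‖ ^ 2 / (volume (A i)).toReal ≤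
      (200 * r) ^ 2 * ∫ x in K, η x ^ 2 := by
  classical
  have hk := kk_pos r hr
  have hKfin : volume K ≠ ⊤ := by
    have hb : Bornology.IsBounded K :=
      (Metric.isBounded_closedBall (x := (0 : E)) (r := r)).subset
        (fun x hx => by simpa using hKr x hx)
    exact hb.measure_lt_top.ne
  have hfin : ∀ S : Set E, S ⊆ K → volume S ≠ ⊤ := fun S hS =>
    ((measure_mono hS).trans_lt (lt_top_iff_ne_top.2 hKfin)).ne
  have hAr : ∀ i, ∀ x ∈ A i, ‖x‖ ≤ r := fun i x hx => hKr x (hAK i hx)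
  have hBr : ∀ i, ∀ x ∈ B i, ‖x‖ ≤ r := fun i x hx => hKr x (hBK i hx)
  -- per-cell quantities
  obtain ⟨a, ha_def⟩ : ∃ a : ι → ℝ, ∀ i, a i = (volume (A i)).toReal := ⟨_, fun _ => rfl⟩
  obtain ⟨b, hb_def⟩ : ∃ b : ι → ℝ, ∀ i, b i = (volume (B i)).toReal := ⟨_, fun _ => rfl⟩
  obtain ⟨p, hp_def⟩ : ∃ p : ι → ℝ, ∀ i, p i = ∫ x in A i, gw (kk r) x := ⟨_, fun _ => rfl⟩
  obtain ⟨q, hq_def⟩ : ∃ q : ι → ℝ, ∀ i, q i = ∫ x in B i, gw (kk r) x := ⟨_, fun _ => rfl⟩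
  obtain ⟨n, hn_def⟩ : ∃ n : ι → ℝ, ∀ i, n i = ∫ x in B i, η x ^ 2 := ⟨_, fun _ => rfl⟩
  obtain ⟨XA, hXA_def⟩ : ∃ XA : ι → E, ∀ i, XA i = ∫ x in A i, x := ⟨_, fun _ => rfl⟩
  obtain ⟨XB, hXB_def⟩ : ∃ XB : ι → E, ∀ i, XB i = ∫ x in B i, x := ⟨_, fun _ => rfl⟩
  obtain ⟨W, hW_def⟩ : ∃ W : ι → E, ∀ i, W i = ∫ x in B i, η x • x := ⟨_, fun _ => rfl⟩
  have ha : ∀ i, 0 < a i := fun i => by
    rw [ha_def]; exact ENNReal.toReal_pos (hpos i).ne' (hfin _ (hAK i))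
  have hpa : ∀ i, p i ≤ a i := fun i => by
    rw [ha_def, hp_def]; exact gint_le _ hk (A i) (hA i) (hfin _ (hAK i))
  have hap : ∀ i, a i ≤ 128 / 127 * p i := fun i => by
    rw [ha_def, hp_def]; exact gint_ge r hr (A i) (hA i) (hfin _ (hAK i)) (hAr i)
  have hqb : ∀ i, q i ≤ b i := fun i => by
    rw [hb_def, hq_def]; exact gint_le _ hk (B i) (hB i) (hfin _ (hBK i))
  have hbq : ∀ i, b i ≤ 128 / 127 * q i := fun i => by
    rw [hb_def, hq_def]; exact gint_ge r hr (B i) (hB i) (hfin _ (hBK i)) (hBr i)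
  have hmb : ∀ i, b i / 2 ≤ a i ∧ a i ≤ 3 / 2 * b i := fun i => by
    have := mass_bounds (B i) (hB i) (hfin _ (hBK i)) η hη hη2
    rw [hmass i] at this
    rw [ha_def, hb_def]; exact this
  have hb2 : ∀ i, b i ≤ 2 * a i := fun i => by linarith [(hmb i).1]
  have hab : ∀ i, a i ≤ 3 / 2 * b i := fun i => (hmb i).2
  have hp : ∀ i, 0 < p i := fun i => by linarith [ha i, hap i]
  have hb : ∀ i, 0 < b i := fun i => by linarith [ha i, hab i]
  have hq : ∀ i, 0 < q i := fun i => by linarith [hb i, hbq i]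
  have hn : ∀ i, 0 ≤ n i := fun i => by
    rw [hn_def]; exact integral_nonneg fun x => sq_nonneg _
  have hba : ∀ i, (b i - a i) ^ 2 ≤ b i * n i := fun i => by
    have h1 := int_one_add (B i) (hB i) (hfin _ (hBK i)) η hη hη2
    rw [hmass i] at h1
    have h2 := leaf_cs (B i) (hB i) (hfin _ (hBK i)) η hη (1 / 2) hη2
    have h3 : b i - a i = -∫ x in B i, η x := by rw [ha_def, hb_def]; linarith
    rw [h3, neg_sq, hb_def, hn_def]; exact h2
  have hN : ∑ i, n i ≤ ∫ x in K, η x ^ 2 := by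
    simp only [hn_def]
    exact leaf_sum K hK hKfin B hB hBK hBd η hη hη2
  have hWb : ∀ i, ‖W i‖ ^ 2 ≤ r ^ 2 * (b i * n i) := fun i => by
    rw [hW_def, hb_def, hn_def]
    exact leaf_w r hr (B i) (hB i) (hBr i) η hη hη2
  have hXAb : ∀ i, ‖XA i‖ ≤ r * a i := fun i => by
    rw [hXA_def, ha_def]; exact norm_int_id r (A i) (hfin _ (hAK i)) (hAr i)
  -- step U
  have HU := hellinger (kk r) hk K A B M hA hB hM hAK hBK hMK hmid hMd hAc hBc
    (fun _ => thU r) (fun _ => (measurable_uu _).const_mul _) (127 * r / 2 * (128 / 127))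
    (fun _ x hx => by
      unfold thU
      rw [abs_of_pos (mul_pos (by positivity) (uu_pos _ _))]
      exact mul_le_mul_of_nonneg_left (uu_le r hr x (hKr x hx)) (by positivity))
    (fun _ x hx y hy => thU_lip r hr x y (hKr x hx) (hKr y hy))
  simp only [int_thU, ← ha_def, ← hb_def, ← hp_def, ← hq_def] at HU
  have hU1 : ∀ i, 6.22 * (a i * (a i / p i - b i / q i) ^ 2) ≤
      Real.sqrt (p i * q i) * (kk r / 8 * (127 * r / 2 * a i / p i - 127 * r / 2 * b i / q i) ^ 2) := by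
    intro i
    have e : kk r / 8 * (127 * r / 2 * a i / p i - 127 * r / 2 * b i / q i) ^ 2 =
        16129 / 2048 * (a i / p i - b i / q i) ^ 2 := by
      have e1 : 127 * r / 2 * a i / p i - 127 * r / 2 * b i / q i =
          127 * r / 2 * (a i / p i - b i / q i) := by ring
      rw [e1, mul_pow]
      unfold kk
      field_simp
      ring
    rw [e]
    have h2 := alg2 (p i) (q i) (a i) (b i) (hp i) (hq i) (ha i) (hap i) (hbq i) (hab i)
    have h3 : 0 ≤ (a i / p i - b i / q i) ^ 2 := sq_nonneg _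
    have h4 := mul_le_mul_of_nonneg_right h2 h3
    have h5 : 0 ≤ a i * (a i / p i - b i / q i) ^ 2 := mul_nonneg (ha i).le h3
    nlinarith
  have hU2 : ∀ i, hel (p i) (q i) ≤ 4 * (a i * (a i / p i - b i / q i) ^ 2) + 2 * n i := by
    intro i
    have h1 := alg1 (p i) (q i) (a i) (b i) (hp i) (hq i) (ha i) (hpa i) (hqb i) (hb2 i)
    have h2 : (b i - a i) ^ 2 / a i ≤ 2 * n i := by
      rw [div_le_iff₀ (ha i)]
      have := mul_le_mul_of_nonneg_right (hb2 i) (hn i)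
      linarith [hba i]
    linarith
  have hHel : ∑ i, hel (p i) (q i) ≤ 6 * ∑ i, n i := by
    have s1 := (Finset.sum_le_sum fun i _ => hU1 i).trans HU
    have s2 := Finset.sum_le_sum fun i (_ : i ∈ Finset.univ) => hU2 i
    rw [← Finset.mul_sum] at s1
    rw [Finset.sum_add_distrib, ← Finset.mul_sum, ← Finset.mul_sum] at s2
    have hSn : 0 ≤ ∑ i, n i := Finset.sum_nonneg fun i _ => hn i
    linarith
  -- step E
  obtain ⟨V, hV_def⟩ : ∃ V : ι → E, ∀ i, V i = (p i)⁻¹ • XA i - (q i)⁻¹ • XB i :=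
    ⟨_, fun _ => rfl⟩
  obtain ⟨e, he_def⟩ : ∃ e : ι → E, ∀ i, e i = ‖V i‖⁻¹ • V i := ⟨_, fun _ => rfl⟩
  have he1 : ∀ i, ‖e i‖ ≤ 1 := fun i => by
    rw [he_def, norm_smul, norm_inv, norm_norm]; exact inv_mul_le_one
  have heV : ∀ i, ⟪e i, V i⟫ = ‖V i‖ := fun i => by
    rw [he_def, real_inner_smul_left, real_inner_self_eq_norm_sq]
    by_cases h0 : ‖V i‖ = 0
    · rw [h0]; simp
    · field_simp
  have HE := hellinger (kk r) hk K A B M hA hB hM hAK hBK hMK hmid hMd hAc hBc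
    (fun i => thE r (e i))
    (fun i => (((measurable_const.inner measurable_id)).mul (measurable_uu _)).const_mul _)
    (127 / 130 * (r * (128 / 127)))
    (fun i x hx => by
      unfold thE
      rw [abs_mul, abs_of_pos (by norm_num : (0 : ℝ) < 127 / 130), abs_mul,
        abs_of_pos (uu_pos _ _)]
      have h1 : |⟪e i, x⟫| ≤ r := by
        calc |⟪e i, x⟫| ≤ ‖e i‖ * ‖x‖ := abs_real_inner_le_norm _ _
          _ ≤ 1 * r := mul_le_mul (he1 i) (hKr x hx) (norm_nonneg _) zero_le_one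
          _ = r := one_mul _
      exact mul_le_mul_of_nonneg_left
        (mul_le_mul h1 (uu_le r hr x (hKr x hx)) (uu_pos _ _).le hr.le) (by norm_num))
    (fun i x hx y hy => thE_lip r hr (e i) (he1 i) x y (hKr x hx) (hKr y hy))
  have hEA : ∀ i, ∫ x in A i, thE r (e i) x * gw (kk r) x = 127 / 130 * ⟪e i, XA i⟫ := fun i => by
    rw [hXA_def]; exact int_thE r (e i) (A i) (hA i) (hfin _ (hAK i)) (hAr i)
  have hEB : ∀ i, ∫ x in B i, thE r (e i) x * gw (kk r) x = 127 / 130 * ⟪e i, XB i⟫ := fun i => by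
    rw [hXB_def]; exact int_thE r (e i) (B i) (hB i) (hfin _ (hBK i)) (hBr i)
  simp only [hEA, hEB, ← hp_def, ← hq_def] at HE
  have hE1 : ∀ i, Real.sqrt (p i * q i) *
      (kk r / 8 * (127 / 130 * ⟪e i, XA i⟫ / p i - 127 / 130 * ⟪e i, XB i⟫ / q i) ^ 2) =
      16129 / (16900 * 512 * r ^ 2) * (Real.sqrt (p i * q i) * ‖V i‖ ^ 2) := by
    intro i
    have e1 : 127 / 130 * ⟪e i, XA i⟫ / p i - 127 / 130 * ⟪e i, XB i⟫ / q i =
        127 / 130 * ‖V i‖ := by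
      rw [← heV i, hV_def, inner_sub_right, real_inner_smul_right, real_inner_smul_right]
      ring
    rw [e1, mul_pow]
    unfold kk
    field_simp
    ring
  simp only [hE1] at HE
  rw [← Finset.mul_sum] at HE
  have hSV : ∑ i, Real.sqrt (p i * q i) * ‖V i‖ ^ 2 ≤ 3219 * (r ^ 2 * ∑ i, n i) := by
    have h1 := HE.trans hHel
    have h2 := mul_le_mul_of_nonneg_left h1 (sq_nonneg r)
    have e2 : r ^ 2 * (16129 / (16900 * 512 * r ^ 2) * ∑ i, Real.sqrt (p i * q i) * ‖V i‖ ^ 2) =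
        16129 / (16900 * 512) * ∑ i, Real.sqrt (p i * q i) * ‖V i‖ ^ 2 := by
      field_simp
    rw [e2] at h2
    have hSn : 0 ≤ r ^ 2 * ∑ i, n i :=
      mul_nonneg (sq_nonneg r) (Finset.sum_nonneg fun i _ => hn i)
    linarith
  -- final
  have hfinal : ∀ i, ‖(∫ x in B i, (1 + η x) • x) - ∫ x in A i, x‖ ^ 2 / (volume (A i)).toReal ≤
      3 * (2 * r ^ 2 * n i + 3 * (Real.sqrt (p i * q i) * ‖V i‖ ^ 2)
        + 12 * r ^ 2 * (128 / 127) ^ 2 * hel (p i) (q i)) := by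
    intro i
    rw [int_one_add_smul r (B i) (hB i) (hfin _ (hBK i)) (hBr i) η hη hη2, ← hXA_def, ← hXB_def,
      ← hW_def, ← ha_def, hV_def]
    exact cell_final r (p i) (q i) (a i) (b i) (n i) (XA i) (XB i) (W i) hr (hp i) (hq i) (ha i)
      (hpa i) (hap i) (hqb i) (hb2 i) (hn i) (hWb i) (hXAb i)
  refine (Finset.sum_le_sum fun i _ => hfinal i).trans ?_
  rw [← Finset.mul_sum, Finset.sum_add_distrib, Finset.sum_add_distrib, ← Finset.mul_sum,
    ← Finset.mul_sum, ← Finset.mul_sum]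
  have hSn : 0 ≤ ∑ i, n i := Finset.sum_nonneg fun i _ => hn i
  have hr2 : 0 ≤ r ^ 2 := sq_nonneg r
  have h1 : r ^ 2 * ∑ i, hel (p i) (q i) ≤ r ^ 2 * (6 * ∑ i, n i) :=
    mul_le_mul_of_nonneg_left hHel hr2
  have h2 : r ^ 2 * ∑ i, n i ≤ r ^ 2 * ∫ x in K, η x ^ 2 := mul_le_mul_of_nonneg_left hN hr2
  have h3 : 0 ≤ r ^ 2 * ∑ i, n i := mul_nonneg hr2 hSn
  nlinarith

end Crest.Agent.OT.FBCore
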