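import Crest.Agent.OT.Basic

/-! # Task FIN-4: `final_bound` from `direction_bound`. -/

set_option autoImplicit false
open MeasureTheory
open scoped ENNReal NNReal RealInnerProductSpace
open Crest.AnalysisR.OT

namespace Crest.Agent.OT.FinB
variable {d : ℕ} {K : Set (E d)} {x₀ : E d} {r₀ r : ℝ}

theorem norm_sq_eq_sum_inner (y : E d) :
    ‖y‖ ^ 2 = ∑ k : Fin d, ⟪(EuclideanSpace.single k (1 : ℝ) : E d), y⟫ ^ 2 := by
  rw [EuclideanSpace.norm_sq_eq]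
  refine Finset.sum_congr rfl fun k _ => ?_
  rw [EuclideanSpace.inner_single_left]
  simp

theorem integrable_inner_sq (hK : Body K x₀ r₀ r) (R : ℝ)
    (T0 T1 : E d → E d) (hT0 : Measurable T0) (hT1 : Measurable T1)
    (hR0 : ∀ᵐ x ∂(unif K), ‖T0 x‖ ≤ R) (hR1 : ∀ᵐ x ∂(unif K), ‖T1 x‖ ≤ R) (e : E d) :
    Integrable (fun x => ⟪e, T0 x - T1 x⟫ ^ 2) (unif K) := by
  refine hK.integrable_of_bdd _ ?_ ((‖e‖ * (R + R)) ^ 2) ?_
  · exact ((measurable_const.inner (hT0.sub hT1)).pow_const 2).aestronglyMeasurable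
  · filter_upwards [hR0, hR1] with x h0 h1
    rw [Real.norm_eq_abs, abs_pow]
    have h2 : ‖T0 x - T1 x‖ ≤ R + R := (norm_sub_le _ _).trans (add_le_add h0 h1)
    have h3 : |⟪e, T0 x - T1 x⟫| ≤ ‖e‖ * (R + R) :=
      (abs_real_inner_le_norm _ _).trans (mul_le_mul_of_nonneg_left h2 (norm_nonneg _))
    exact pow_le_pow_left₀ (abs_nonneg _) h3 2

/-- FIN-4 with `direction_bound` as a hypothesis. -/
theorem final_bound_of (hK : Body K x₀ r₀ r) (C : ℝ) (_hC : 0 ≤ C) (R : ℝ) (hR : 0 ≤ R)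
    (hdir : ∀ (T0 T1 : E d → E d), Measurable T0 → Measurable T1 →
      (∀ᵐ x ∂(unif K), ‖T0 x‖ ≤ R) → (∀ᵐ x ∂(unif K), ‖T1 x‖ ≤ R) →
      ∀ (φ0 φ1 : E d → ℝ), IsPotential K R T0 φ0 → IsPotential K R T1 φ1 →
      ∀ (ε : ℝ), 0 ≤ ε → KeyIneq K C T0 T1 ε →
      ∀ (e : E d), ‖e‖ = 1 → ∀ (a : ℝ), 0 < a → a ≤ r₀ →
      ∫ x, ⟪e, T0 x - T1 x⟫ ^ 2 ∂(unif K) ≤
        8 * C ^ 2 * ε ^ 2 / a ^ 2 + 20 * R ^ 2 * d * a / r₀) :
    ∃ C' : ℝ, 0 ≤ C' ∧ ∀ (T0 T1 : E d → E d) (φ0 φ1 : E d → ℝ) (ε : ℝ),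
      Measurable T0 → Measurable T1 →
      (∀ᵐ x ∂(unif K), ‖T0 x‖ ≤ R) → (∀ᵐ x ∂(unif K), ‖T1 x‖ ≤ R) →
      IsPotential K R T0 φ0 → IsPotential K R T1 φ1 → 0 ≤ ε → KeyIneq K C T0 T1 ε →
      ∫ x, ‖T0 x - T1 x‖ ^ 2 ∂(unif K) ≤ C' * (ε ^ 2) ^ (1 / 3 : ℝ) := by
  have hr₀ : 0 < r₀ := hK.r₀_pos
  have hprob := hK.isProbabilityMeasure
  refine ⟨d * (8 * C ^ 2 + 20 * R ^ 2 * d / r₀) + 4 * R ^ 2 / r₀, by positivity, ?_⟩
  intro T0 T1 φ0 φ1 ε hT0 hT1 hR0 hR1 h0 h1 hε hkey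
  set t : ℝ := (ε ^ 2) ^ (1 / 3 : ℝ) with ht
  have ht0 : 0 ≤ t := Real.rpow_nonneg (sq_nonneg _) _
  have ht3 : t ^ 3 = ε ^ 2 := by
    rw [ht, ← Real.rpow_natCast, ← Real.rpow_mul (sq_nonneg _)]
    norm_num
  -- sum over the coordinate directions
  have hsum : ∀ a : ℝ, 0 < a → a ≤ r₀ → ∫ x, ‖T0 x - T1 x‖ ^ 2 ∂(unif K) ≤
      d * (8 * C ^ 2 * ε ^ 2 / a ^ 2 + 20 * R ^ 2 * d * a / r₀) := by
    intro a ha har
    have e1 : ∫ x, ‖T0 x - T1 x‖ ^ 2 ∂(unif K) =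
        ∑ k : Fin d, ∫ x, ⟪(EuclideanSpace.single k (1 : ℝ) : E d), T0 x - T1 x⟫ ^ 2
          ∂(unif K) := by
      rw [← integral_finsetSum _ fun k _ => integrable_inner_sq hK R T0 T1 hT0 hT1 hR0 hR1 _]
      exact integral_congr_ae (Filter.Eventually.of_forall fun x => norm_sq_eq_sum_inner _)
    rw [e1]
    calc ∑ k : Fin d, ∫ x, ⟪(EuclideanSpace.single k (1 : ℝ) : E d), T0 x - T1 x⟫ ^ 2 ∂(unif K)
        ≤ ∑ _k : Fin d, (8 * C ^ 2 * ε ^ 2 / a ^ 2 + 20 * R ^ 2 * d * a / r₀) := by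
          refine Finset.sum_le_sum fun k _ => ?_
          exact hdir T0 T1 hT0 hT1 hR0 hR1 φ0 φ1 h0 h1 ε hε hkey _ (by simp) a ha har
      _ = d * (8 * C ^ 2 * ε ^ 2 / a ^ 2 + 20 * R ^ 2 * d * a / r₀) := by
          rw [Finset.sum_const, Finset.card_univ, Fintype.card_fin, nsmul_eq_mul]
  -- trivial bound
  have htriv : ∫ x, ‖T0 x - T1 x‖ ^ 2 ∂(unif K) ≤ 4 * R ^ 2 := by
    have : ∫ x, ‖T0 x - T1 x‖ ^ 2 ∂(unif K) ≤ ∫ _x, 4 * R ^ 2 ∂(unif K) := by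
      refine integral_mono_of_nonneg (Filter.Eventually.of_forall fun x => by positivity)
        (integrable_const _) ?_
      filter_upwards [hR0, hR1] with x h0 h1
      have h2 : ‖T0 x - T1 x‖ ≤ R + R := (norm_sub_le _ _).trans (add_le_add h0 h1)
      calc ‖T0 x - T1 x‖ ^ 2 ≤ (R + R) ^ 2 := pow_le_pow_left₀ (norm_nonneg _) h2 2
        _ = 4 * R ^ 2 := by ring
    simpa using this
  have hA : 0 ≤ (d : ℝ) * (8 * C ^ 2 + 20 * R ^ 2 * d / r₀) := by positivity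
  have hB : 0 ≤ 4 * R ^ 2 / r₀ := by positivity
  rcases lt_or_ge r₀ t with hlt | hle
  · -- large `ε`
    calc ∫ x, ‖T0 x - T1 x‖ ^ 2 ∂(unif K) ≤ 4 * R ^ 2 := htriv
      _ = 4 * R ^ 2 / r₀ * r₀ := by field_simp
      _ ≤ 4 * R ^ 2 / r₀ * t := mul_le_mul_of_nonneg_left hlt.le hB
      _ ≤ (d * (8 * C ^ 2 + 20 * R ^ 2 * d / r₀) + 4 * R ^ 2 / r₀) * t := by
          nlinarith [mul_nonneg hA ht0]
  · rcases eq_or_lt_of_le ht0 with h0t | hpos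
    · -- `ε = 0`
      have hε2 : ε ^ 2 = 0 := by rw [← ht3, ← h0t]; norm_num
      rw [← h0t, mul_zero]
      refine le_of_forall_pos_le_add fun e he => ?_
      set c : ℝ := d * (20 * R ^ 2 * d / r₀) with hc
      have hc0 : 0 ≤ c := by positivity
      have ha : 0 < min r₀ (e / (c + 1)) := lt_min hr₀ (by positivity)
      have := hsum _ ha (min_le_left _ _)
      rw [hε2] at this
      refine this.trans ?_
      have h5 : min r₀ (e / (c + 1)) ≤ e / (c + 1) := min_le_right _ _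
      have h6 : c * (e / (c + 1)) ≤ e := by
        rw [mul_div_assoc', div_le_iff₀ (by positivity)]
        nlinarith
      calc (d : ℝ) * (8 * C ^ 2 * 0 / min r₀ (e / (c + 1)) ^ 2
            + 20 * R ^ 2 * d * min r₀ (e / (c + 1)) / r₀)
          = c * min r₀ (e / (c + 1)) := by rw [hc]; ring
        _ ≤ c * (e / (c + 1)) := mul_le_mul_of_nonneg_left h5 hc0
        _ ≤ 0 + e := by linarith
    · have := hsum t hpos hle
      refine this.trans ?_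
      have h7 : 8 * C ^ 2 * ε ^ 2 / t ^ 2 = 8 * C ^ 2 * t := by
        rw [← ht3]
        field_simp
      rw [h7]
      have h8 : (d : ℝ) * (8 * C ^ 2 * t + 20 * R ^ 2 * d * t / r₀)
          = d * (8 * C ^ 2 + 20 * R ^ 2 * d / r₀) * t := by ring
      rw [h8]
      nlinarith [mul_nonneg hB ht0]

end Crest.Agent.OT.FinB
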