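import Mathlib
import Crest.Agent.OT.PL

/-! # Row 82, module (2): Prékopa–Leindler with a Gaussian weight and an exponential tilt. -/

set_option autoImplicit false
open MeasureTheory
open scoped ENNReal NNReal RealInnerProductSpace

namespace Crest.Agent.OT.Tilt

variable {d : ℕ}

/-- Gaussian weight `exp (-k |x|² / 2)`. -/
noncomputable def gw (k : ℝ) (x : EuclideanSpace ℝ (Fin d)) : ℝ := Real.exp (-(k * ‖x‖ ^ 2 / 2))

/-- Gaussian measure (not normalised). -/
noncomputable def gam (k : ℝ) : Measure (EuclideanSpace ℝ (Fin d)) :=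
  volume.withDensity (fun x => ENNReal.ofReal (gw k x))

theorem gw_pos (k : ℝ) (x : EuclideanSpace ℝ (Fin d)) : 0 < gw k x := Real.exp_pos _

theorem measurable_gw (k : ℝ) : Measurable (gw k : EuclideanSpace ℝ (Fin d) → ℝ) := by
  unfold gw
  fun_prop

theorem integrable_gw (k : ℝ) (hk : 0 < k) :
    Integrable (gw k : EuclideanSpace ℝ (Fin d) → ℝ) := by
  have h := GaussianFourier.integrable_cexp_neg_mul_sq_norm_add
    (V := EuclideanSpace ℝ (Fin d)) (b := ((k / 2 : ℝ) : ℂ)) (by simpa using half_pos hk) 0 0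
  have h2 := h.norm
  refine h2.congr (Filter.Eventually.of_forall fun x => ?_)
  simp only [gw, Complex.norm_exp]
  congr 1
  simp
  rw [← Complex.ofReal_pow, Complex.ofReal_re]
  ring

theorem isFiniteMeasure_gam (k : ℝ) (hk : 0 < k) :
    IsFiniteMeasure (gam k : Measure (EuclideanSpace ℝ (Fin d))) := by
  unfold gam
  exact isFiniteMeasure_withDensity_ofReal (integrable_gw k hk).2

theorem gam_apply (k : ℝ) (S : Set (EuclideanSpace ℝ (Fin d))) (hS : MeasurableSet S) :
    gam k S = ∫⁻ x in S, ENNReal.ofReal (gw k x) := by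
  unfold gam
  rw [withDensity_apply _ hS]

/-- the pointwise inequality behind the tilt. -/
theorem tilt_pointwise (k : ℝ) (hk : 0 < k) (t : ℝ) (x y : EuclideanSpace ℝ (Fin d)) (u v : ℝ)
    (huv : |u - v| ≤ ‖x - y‖) :
    (gw k x * Real.exp (t * u)) * (gw k y * Real.exp (-t * v)) ≤
      (gw k ((1 / 2 : ℝ) • (x + y)) * Real.exp (t ^ 2 / (2 * k))) ^ 2 := by
  unfold gw
  rw [← Real.exp_add, ← Real.exp_add, ← Real.exp_add, ← Real.exp_add, ← Real.exp_nat_mul]
  apply Real.exp_le_exp.mpr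
  have hpar := parallelogram_law_with_norm ℝ x y
  have hz : ‖(1 / 2 : ℝ) • (x + y)‖ ^ 2 = ‖x + y‖ ^ 2 / 4 := by
    rw [norm_smul, mul_pow]; norm_num; ring
  rw [hz]
  set s := ‖x - y‖ with hs
  have hs0 : 0 ≤ s := norm_nonneg _
  have h1 : t * (u - v) ≤ |t| * s := by
    calc t * (u - v) ≤ |t * (u - v)| := le_abs_self _
      _ = |t| * |u - v| := abs_mul _ _
      _ ≤ |t| * s := by gcongr
  have h2 : |t| * s - k * s ^ 2 / 4 ≤ t ^ 2 / k := by
    rw [le_div_iff₀ hk]
    have : t ^ 2 = |t| ^ 2 := (sq_abs t).symm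
    rw [this]
    nlinarith [sq_nonneg (|t| - k * s / 2)]
  have h3 : t ^ 2 / (2 * k) = t ^ 2 / k / 2 := by field_simp
  rw [h3]
  push_cast
  nlinarith [hpar, h1, h2]

/-- Jensen for `exp`, `lintegral` form, via the tangent line. -/
theorem jensen_exp_lintegral {α : Type*} [MeasurableSpace α] (ν : Measure α) [IsFiniteMeasure ν]
    (θ : α → ℝ) (hθ : Integrable θ ν) (t : ℝ) :
    ν Set.univ * ENNReal.ofReal (Real.exp (t * ⨍ x, θ x ∂ν)) ≤
      ∫⁻ x, ENNReal.ofReal (Real.exp (t * θ x)) ∂ν := by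
  by_cases h0 : ν = 0
  · simp [h0]
  set c : ℝ := t * ⨍ x, θ x ∂ν with hc
  have hint : Integrable (fun x => Real.exp c * (1 + (t * θ x - c))) ν :=
    ((integrable_const (1 : ℝ)).add ((hθ.const_mul t).sub (integrable_const c))).const_mul _
  have hval : ∫ x, Real.exp c * (1 + (t * θ x - c)) ∂ν = ν.real Set.univ * Real.exp c := by
    have hi2 : Integrable (fun x => t * θ x - c) ν := (hθ.const_mul t).sub (integrable_const c)
    rw [integral_const_mul, integral_add (integrable_const _) hi2,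
      integral_sub (hθ.const_mul t) (integrable_const c), integral_const_mul]
    simp only [integral_const, smul_eq_mul, mul_one]
    have hav : ∫ x, θ x ∂ν = ν.real Set.univ * ⨍ x, θ x ∂ν := by
      have := measure_smul_average ν θ
      simpa [smul_eq_mul] using this.symm
    rw [hav, hc]
    ring
  have h1 : ENNReal.ofReal (∫ x, Real.exp c * (1 + (t * θ x - c)) ∂ν) ≤
      ∫⁻ x, ENNReal.ofReal (Real.exp c * (1 + (t * θ x - c))) ∂ν := by
    rw [integral_eq_lintegral_pos_part_sub_lintegral_neg_part hint]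
    refine le_trans (ENNReal.ofReal_le_ofReal (sub_le_self _ ENNReal.toReal_nonneg)) ?_
    exact ENNReal.ofReal_toReal_le
  have h2 : ∫⁻ x, ENNReal.ofReal (Real.exp c * (1 + (t * θ x - c))) ∂ν ≤
      ∫⁻ x, ENNReal.ofReal (Real.exp (t * θ x)) ∂ν := by
    refine lintegral_mono fun x => ENNReal.ofReal_le_ofReal ?_
    have := Real.add_one_le_exp (t * θ x - c)
    calc Real.exp c * (1 + (t * θ x - c)) ≤ Real.exp c * Real.exp (t * θ x - c) := by
          gcongr; linarith
      _ = Real.exp (t * θ x) := by rw [← Real.exp_add]; congr 1; ring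
  refine le_trans (le_of_eq ?_) (h1.trans h2)
  rw [hval, ENNReal.ofReal_mul measureReal_nonneg]
  congr 1
  simp [Measure.real]

theorem setLIntegral_gam (k : ℝ) (S : Set (EuclideanSpace ℝ (Fin d))) (hS : MeasurableSet S)
    (φ : EuclideanSpace ℝ (Fin d) → ℝ≥0∞) (hφ : Measurable φ) :
    ∫⁻ x in S, φ x ∂(gam k) = ∫⁻ x in S, ENNReal.ofReal (gw k x) * φ x := by
  unfold gam
  rw [restrict_withDensity hS,
    lintegral_withDensity_eq_lintegral_mul _ (measurable_gw k).ennreal_ofReal hφ]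
  rfl

/-- PL + tilt with a free parameter `t`. -/
theorem pl_tilt_param (k : ℝ) (hk : 0 < k) (A B M : Set (EuclideanSpace ℝ (Fin d)))
    (hA : MeasurableSet A) (hB : MeasurableSet B) (hM : MeasurableSet M)
    (hmid : ∀ x ∈ A, ∀ y ∈ B, (1 / 2 : ℝ) • (x + y) ∈ M)
    (θ : EuclideanSpace ℝ (Fin d) → ℝ) (hθ : Measurable θ)
    (hlip : ∀ x ∈ A, ∀ y ∈ B, |θ x - θ y| ≤ ‖x - y‖)
    (hiA : IntegrableOn θ A (gam k)) (hiB : IntegrableOn θ B (gam k)) (t : ℝ) :
    gam k A * gam k B *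
        ENNReal.ofReal (Real.exp (t * ((⨍ x in A, θ x ∂(gam k)) - ⨍ x in B, θ x ∂(gam k)))) ≤
      ENNReal.ofReal (Real.exp (t ^ 2 / k)) * (gam k M) ^ 2 := by
  have := isFiniteMeasure_gam (d := d) k hk
  set f : EuclideanSpace ℝ (Fin d) → ℝ≥0∞ :=
    A.indicator (fun x => ENNReal.ofReal (gw k x * Real.exp (t * θ x))) with hf
  set g : EuclideanSpace ℝ (Fin d) → ℝ≥0∞ :=
    B.indicator (fun x => ENNReal.ofReal (gw k x * Real.exp (-t * θ x))) with hg
  set m : EuclideanSpace ℝ (Fin d) → ℝ≥0∞ :=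
    M.indicator (fun x => ENNReal.ofReal (gw k x * Real.exp (t ^ 2 / (2 * k)))) with hm
  have hfm : Measurable f := by
    refine Measurable.indicator ?_ hA
    exact ((measurable_gw k).mul (Real.measurable_exp.comp (hθ.const_mul t))).ennreal_ofReal
  have hgm : Measurable g := by
    refine Measurable.indicator ?_ hB
    exact ((measurable_gw k).mul (Real.measurable_exp.comp (hθ.const_mul (-t)))).ennreal_ofReal
  have hmm : Measurable m := by
    refine Measurable.indicator ?_ hM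
    exact ((measurable_gw k).mul_const _).ennreal_ofReal
  have hpt : ∀ x y, f x * g y ≤ m ((1 / 2 : ℝ) • (x + y)) ^ 2 := by
    intro x y
    by_cases hx : x ∈ A
    · by_cases hy : y ∈ B
      · have hz := hmid x hx y hy
        simp only [hf, hg, hm, Set.indicator_of_mem hx, Set.indicator_of_mem hy,
          Set.indicator_of_mem hz]
        rw [← ENNReal.ofReal_mul (by have := gw_pos k x; positivity),
          ← ENNReal.ofReal_pow (by have := gw_pos k ((1 / 2 : ℝ) • (x + y)); positivity)]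
        exact ENNReal.ofReal_le_ofReal (tilt_pointwise k hk t x y _ _ (hlip x hx y hy))
      · simp [hg, Set.indicator_of_notMem hy]
    · simp [hf, Set.indicator_of_notMem hx]
  have hPL := prekopa_leindler_half d f g m hfm hgm hmm hpt
  have hIf : gam k A * ENNReal.ofReal (Real.exp (t * ⨍ x in A, θ x ∂(gam k))) ≤ ∫⁻ x, f x := by
    have hJ := jensen_exp_lintegral ((gam k).restrict A) θ hiA t
    rw [Measure.restrict_apply_univ, setLIntegral_gam k A hA
      (fun x => ENNReal.ofReal (Real.exp (t * θ x)))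
      (Real.measurable_exp.comp (hθ.const_mul t)).ennreal_ofReal] at hJ
    refine hJ.trans (le_of_eq ?_)
    rw [hf, lintegral_indicator hA]
    refine lintegral_congr fun x => ?_
    rw [ENNReal.ofReal_mul (gw_pos k x).le]
  have hIg : gam k B * ENNReal.ofReal (Real.exp (-t * ⨍ x in B, θ x ∂(gam k))) ≤ ∫⁻ x, g x := by
    have hJ := jensen_exp_lintegral ((gam k).restrict B) θ hiB (-t)
    rw [Measure.restrict_apply_univ, setLIntegral_gam k B hB
      (fun x => ENNReal.ofReal (Real.exp (-t * θ x)))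
      (Real.measurable_exp.comp (hθ.const_mul (-t))).ennreal_ofReal] at hJ
    refine hJ.trans (le_of_eq ?_)
    rw [hg, lintegral_indicator hB]
    refine lintegral_congr fun x => ?_
    rw [ENNReal.ofReal_mul (gw_pos k x).le]
  have hIm : ∫⁻ x, m x = ENNReal.ofReal (Real.exp (t ^ 2 / (2 * k))) * gam k M := by
    rw [hm, lintegral_indicator hM, gam_apply k M hM, ← lintegral_const_mul _
      (measurable_gw k).ennreal_ofReal]
    refine lintegral_congr fun x => ?_
    rw [ENNReal.ofReal_mul (gw_pos k x).le, mul_comm]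
  calc gam k A * gam k B *
        ENNReal.ofReal (Real.exp (t * ((⨍ x in A, θ x ∂(gam k)) - ⨍ x in B, θ x ∂(gam k))))
      = (gam k A * ENNReal.ofReal (Real.exp (t * ⨍ x in A, θ x ∂(gam k)))) *
        (gam k B * ENNReal.ofReal (Real.exp (-t * ⨍ x in B, θ x ∂(gam k)))) := by
        have : Real.exp (t * ((⨍ x in A, θ x ∂(gam k)) - ⨍ x in B, θ x ∂(gam k))) =
            Real.exp (t * ⨍ x in A, θ x ∂(gam k)) * Real.exp (-t * ⨍ x in B, θ x ∂(gam k)) := by
          rw [← Real.exp_add]; congr 1; ring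
        rw [this, ENNReal.ofReal_mul (Real.exp_pos _).le]
        ring
    _ ≤ (∫⁻ x, f x) * ∫⁻ x, g x := mul_le_mul' hIf hIg
    _ ≤ (∫⁻ x, m x) ^ 2 := hPL
    _ = ENNReal.ofReal (Real.exp (t ^ 2 / k)) * (gam k M) ^ 2 := by
        rw [hIm, mul_pow, ← ENNReal.ofReal_pow (Real.exp_pos _).le, ← Real.exp_nat_mul]
        congr 3
        push_cast
        field_simp

/-- **PL + tilt** (`ℝ≥0∞` form). -/
theorem pl_tilt_ennreal (k : ℝ) (hk : 0 < k) (A B M : Set (EuclideanSpace ℝ (Fin d)))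
    (hA : MeasurableSet A) (hB : MeasurableSet B) (hM : MeasurableSet M)
    (hmid : ∀ x ∈ A, ∀ y ∈ B, (1 / 2 : ℝ) • (x + y) ∈ M)
    (θ : EuclideanSpace ℝ (Fin d) → ℝ) (hθ : Measurable θ)
    (hlip : ∀ x ∈ A, ∀ y ∈ B, |θ x - θ y| ≤ ‖x - y‖)
    (hiA : IntegrableOn θ A (gam k)) (hiB : IntegrableOn θ B (gam k)) :
    gam k A * gam k B * ENNReal.ofReal
        (Real.exp (k / 4 * ((⨍ x in A, θ x ∂(gam k)) - ⨍ x in B, θ x ∂(gam k)) ^ 2)) ≤
      (gam k M) ^ 2 := by
  set D : ℝ := (⨍ x in A, θ x ∂(gam k)) - ⨍ x in B, θ x ∂(gam k) with hD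
  have h := pl_tilt_param k hk A B M hA hB hM hmid θ hθ hlip hiA hiB (k * D / 2)
  rw [← hD] at h
  have h2 := mul_le_mul_right h (ENNReal.ofReal (Real.exp (-((k * D / 2) ^ 2 / k))))
  have e1 : ENNReal.ofReal (Real.exp (-((k * D / 2) ^ 2 / k))) *
      (ENNReal.ofReal (Real.exp ((k * D / 2) ^ 2 / k)) * (gam k M) ^ 2) = (gam k M) ^ 2 := by
    rw [← mul_assoc, ← ENNReal.ofReal_mul (Real.exp_pos _).le, ← Real.exp_add]
    simp
  have e2 : ENNReal.ofReal (Real.exp (-((k * D / 2) ^ 2 / k))) *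
      (gam k A * gam k B * ENNReal.ofReal (Real.exp (k * D / 2 * D))) =
      gam k A * gam k B * ENNReal.ofReal (Real.exp (k / 4 * D ^ 2)) := by
    rw [mul_comm, mul_assoc, ← ENNReal.ofReal_mul (Real.exp_pos _).le, ← Real.exp_add]
    congr 3
    field_simp
    ring
  rw [e1, e2] at h2
  exact h2

/-- **PL + tilt** (real form). -/
theorem pl_tilt (k : ℝ) (hk : 0 < k) (A B M : Set (EuclideanSpace ℝ (Fin d)))
    (hA : MeasurableSet A) (hB : MeasurableSet B) (hM : MeasurableSet M)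
    (hmid : ∀ x ∈ A, ∀ y ∈ B, (1 / 2 : ℝ) • (x + y) ∈ M)
    (θ : EuclideanSpace ℝ (Fin d) → ℝ) (hθ : Measurable θ)
    (hlip : ∀ x ∈ A, ∀ y ∈ B, |θ x - θ y| ≤ ‖x - y‖)
    (hiA : IntegrableOn θ A (gam k)) (hiB : IntegrableOn θ B (gam k)) :
    (gam k A).toReal * (gam k B).toReal *
        Real.exp (k / 4 * ((⨍ x in A, θ x ∂(gam k)) - ⨍ x in B, θ x ∂(gam k)) ^ 2) ≤
      (gam k M).toReal ^ 2 := by
  have := isFiniteMeasure_gam (d := d) k hk
  have h := pl_tilt_ennreal k hk A B M hA hB hM hmid θ hθ hlip hiA hiB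
  have h2 := ENNReal.toReal_mono (by finiteness) h
  simpa [ENNReal.toReal_mul, ENNReal.toReal_pow, ENNReal.toReal_ofReal (Real.exp_pos _).le]
    using h2

/-! ### conversion to plain Lebesgue integrals -/

theorem gam_toReal (k : ℝ) (S : Set (EuclideanSpace ℝ (Fin d))) (hS : MeasurableSet S) :
    (gam k S).toReal = ∫ x in S, gw k x := by
  rw [gam_apply k S hS, integral_eq_lintegral_of_nonneg_ae
    (Filter.Eventually.of_forall fun x => (gw_pos k x).le)
    (measurable_gw k).aestronglyMeasurable]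

theorem setIntegral_gam (k : ℝ) (S : Set (EuclideanSpace ℝ (Fin d))) (hS : MeasurableSet S)
    (θ : EuclideanSpace ℝ (Fin d) → ℝ) :
    ∫ x in S, θ x ∂(gam k) = ∫ x in S, θ x * gw k x := by
  unfold gam
  rw [restrict_withDensity hS, integral_withDensity_eq_integral_toReal_smul
    (measurable_gw k).ennreal_ofReal (Filter.Eventually.of_forall fun x => ENNReal.ofReal_lt_top)]
  refine integral_congr_ae (Filter.Eventually.of_forall fun x => ?_)
  simp only [ENNReal.toReal_ofReal (gw_pos k x).le, smul_eq_mul]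
  ring

theorem setAverage_gam (k : ℝ) (S : Set (EuclideanSpace ℝ (Fin d))) (hS : MeasurableSet S)
    (θ : EuclideanSpace ℝ (Fin d) → ℝ) :
    ⨍ x in S, θ x ∂(gam k) = (∫ x in S, θ x * gw k x) / ∫ x in S, gw k x := by
  rw [setAverage_eq, setIntegral_gam k S hS, Measure.real, gam_toReal k S hS, smul_eq_mul]
  ring

theorem integrableOn_gam_of_bdd (k : ℝ) (hk : 0 < k) (S : Set (EuclideanSpace ℝ (Fin d)))
    (θ : EuclideanSpace ℝ (Fin d) → ℝ) (hθ : Measurable θ) (Θ : ℝ) (hb : ∀ x ∈ S, |θ x| ≤ Θ)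
    (hS : MeasurableSet S) : IntegrableOn θ S (gam k) := by
  have := isFiniteMeasure_gam (d := d) k hk
  refine Measure.integrableOn_of_bounded (M := Θ) (measure_ne_top _ _)
    hθ.aestronglyMeasurable ?_
  rw [ae_restrict_iff' hS]
  exact Filter.Eventually.of_forall fun x hx => by simpa using hb x hx

/-- **PL + tilt**, square-root form with plain Lebesgue integrals. -/
theorem pl_tilt_sqrt (k : ℝ) (hk : 0 < k) (A B M : Set (EuclideanSpace ℝ (Fin d)))
    (hA : MeasurableSet A) (hB : MeasurableSet B) (hM : MeasurableSet M)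
    (hmid : ∀ x ∈ A, ∀ y ∈ B, (1 / 2 : ℝ) • (x + y) ∈ M)
    (θ : EuclideanSpace ℝ (Fin d) → ℝ) (hθ : Measurable θ) (Θ : ℝ)
    (hbA : ∀ x ∈ A, |θ x| ≤ Θ) (hbB : ∀ x ∈ B, |θ x| ≤ Θ)
    (hlip : ∀ x ∈ A, ∀ y ∈ B, |θ x - θ y| ≤ ‖x - y‖) :
    Real.sqrt ((∫ x in A, gw k x) * ∫ x in B, gw k x) *
        Real.exp (k / 8 * ((∫ x in A, θ x * gw k x) / (∫ x in A, gw k x) -
          (∫ x in B, θ x * gw k x) / ∫ x in B, gw k x) ^ 2) ≤ ∫ x in M, gw k x := by
  have h := pl_tilt k hk A B M hA hB hM hmid θ hθ hlip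
    (integrableOn_gam_of_bdd k hk A θ hθ Θ hbA hA) (integrableOn_gam_of_bdd k hk B θ hθ Θ hbB hB)
  rw [setAverage_gam k A hA, setAverage_gam k B hB, gam_toReal k A hA, gam_toReal k B hB,
    gam_toReal k M hM] at h
  set D := (∫ x in A, θ x * gw k x) / (∫ x in A, gw k x) -
          (∫ x in B, θ x * gw k x) / ∫ x in B, gw k x with hD
  have hM0 : 0 ≤ ∫ x in M, gw k x := integral_nonneg fun x => (gw_pos k x).le
  have hA0 : 0 ≤ ∫ x in A, gw k x := integral_nonneg fun x => (gw_pos k x).le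
  have hB0 : 0 ≤ ∫ x in B, gw k x := integral_nonneg fun x => (gw_pos k x).le
  rw [← Real.sqrt_sq hM0]
  have e : Real.exp (k / 8 * D ^ 2) = Real.sqrt (Real.exp (k / 4 * D ^ 2)) := by
    rw [← Real.sqrt_sq (Real.exp_pos (k / 8 * D ^ 2)).le, ← Real.exp_nat_mul]
    congr 2
    push_cast
    ring
  rw [e, ← Real.sqrt_mul (mul_nonneg hA0 hB0)]
  exact Real.sqrt_le_sqrt h

end Crest.Agent.OT.Tilt
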